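import Vale.Agent.P202C.Blk

/-!
P202 in characteristic p: cohomology of the slices of the explicit complex, over `A = 𝔽[Y_0..Y_n]`.
-/

set_option autoImplicit false

namespace Vale.Agent.P202C

open IsLocalRing TensorProduct

universe u v w

section Slices

variable (𝔽 : Type w) [Field 𝔽] {n : ℕ}

open Classical in
/-- keep the monomials with the property `p` -/
noncomputable def rsP (p : (Fin n → ℤ) × ℤ → Prop) : Lau 𝔽 n →+ Lau 𝔽 n where
  toFun f := AddMonoidAlgebra.ofCoeff (f.coeff.filter p)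
  map_zero' := by
    apply AddMonoidAlgebra.coeff_injective
    rw [AddMonoidAlgebra.coeff_ofCoeff, AddMonoidAlgebra.coeff_zero, Finsupp.filter_zero]
  map_add' := fun f g => by
    apply AddMonoidAlgebra.coeff_injective
    rw [AddMonoidAlgebra.coeff_ofCoeff, AddMonoidAlgebra.coeff_add, AddMonoidAlgebra.coeff_add,
      Finsupp.filter_add]

theorem rsP_coeff_pos {p : (Fin n → ℤ) × ℤ → Prop} (f : Lau 𝔽 n) {m : (Fin n → ℤ) × ℤ}
    (h : p m) : (rsP 𝔽 p f).coeff m = f.coeff m := by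
  classical
  unfold rsP
  exact Finsupp.filter_apply_pos _ _ h

theorem rsP_coeff_neg {p : (Fin n → ℤ) × ℤ → Prop} (f : Lau 𝔽 n) {m : (Fin n → ℤ) × ℤ}
    (h : ¬ p m) : (rsP 𝔽 p f).coeff m = 0 := by
  classical
  unfold rsP
  exact Finsupp.filter_apply_neg _ _ h

theorem rsP_ne {p : (Fin n → ℤ) × ℤ → Prop} {f : Lau 𝔽 n} {m : (Fin n → ℤ) × ℤ}
    (h : (rsP 𝔽 p f).coeff m ≠ 0) : p m ∧ f.coeff m ≠ 0 := by
  by_cases hp : p m
  · rw [rsP_coeff_pos 𝔽 f hp] at h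
    exact ⟨hp, h⟩
  · exact absurd (rsP_coeff_neg 𝔽 f hp) h

theorem lau_ext {f g : Lau 𝔽 n} (h : ∀ m, f.coeff m = g.coeff m) : f = g :=
  AddMonoidAlgebra.coeff_injective (Finsupp.ext h)

/-- condition for the type `0` -/
def p0 (b : Fin n → ℤ) (l : Fin n) (m : (Fin n → ℤ) × ℤ) : Prop := m.1 l ≤ b l + m.2

/-- condition for the second summand of the homotopy -/
def p1 (b : Fin n → ℤ) (l : Fin n) (m : (Fin n → ℤ) × ℤ) : Prop := ¬ m.1 l ≤ b l + m.2 ∧ 0 ≤ m.1 l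

/-- harmonic monomials of type `2` -/
def pH (b : Fin n → ℤ) (l : Fin n) (m : (Fin n → ℤ) × ℤ) : Prop := ¬ m.1 l ≤ b l + m.2 ∧ ¬ 0 ≤ m.1 l

/-- differential in the direction `l` -/
noncomputable def Dd (l : Fin n) (f : XA 𝔽 n) : XA 𝔽 n := fun τ =>
  if τ l = 2 then csg τ l • (f (Function.update τ l 0) - f (Function.update τ l 1)) else 0

/-- the map used in the homotopy, depending on the type -/
noncomputable def rt01 (b : Fin n → ℤ) (l : Fin n) (c : Fin 3) : Lau 𝔽 n →+ Lau 𝔽 n :=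
  if c = 0 then rsP 𝔽 (p0 b l) else -rsP 𝔽 (p1 b l)

/-- homotopy in the direction `l` -/
noncomputable def Hh (b : Fin n → ℤ) (l : Fin n) (f : XA 𝔽 n) : XA 𝔽 n := fun τ =>
  if τ l = 2 then 0 else csg τ l • rt01 𝔽 b l (τ l) (f (Function.update τ l 2))

/-- projection in the direction `l` -/
noncomputable def Pp (b : Fin n → ℤ) (l : Fin n) (f : XA 𝔽 n) : XA 𝔽 n := fun τ =>
  if τ l = 2 then rsP 𝔽 (pH b l) (f τ) else rsP 𝔽 (p0 b l) (f (Function.update τ l 1))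

theorem Dd_apply (l : Fin n) (f : XA 𝔽 n) (τ : Fin n → Fin 3) : Dd 𝔽 l f τ =
    if τ l = 2 then csg τ l • (f (Function.update τ l 0) - f (Function.update τ l 1)) else 0 := rfl

theorem Hh_apply (b : Fin n → ℤ) (l : Fin n) (f : XA 𝔽 n) (τ : Fin n → Fin 3) :
    Hh 𝔽 b l f τ =
      if τ l = 2 then 0 else csg τ l • rt01 𝔽 b l (τ l) (f (Function.update τ l 2)) := rfl

theorem Pp_apply (b : Fin n → ℤ) (l : Fin n) (f : XA 𝔽 n) (τ : Fin n → Fin 3) :
    Pp 𝔽 b l f τ = if τ l = 2 then rsP 𝔽 (pH b l) (f τ) else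
      rsP 𝔽 (p0 b l) (f (Function.update τ l 1)) := rfl

theorem dA_eq_sum (f : XA 𝔽 n) : dA 𝔽 n f = ∑ l, Dd 𝔽 l f := by
  funext τ
  rw [dA_apply, Finset.sum_apply, Finset.sum_filter]
  rfl

theorem csg_self (τ : Fin n → Fin 3) (l : Fin n) (c : Fin 3) :
    csg (Function.update τ l c) l = csg τ l := by
  unfold csg
  congr 2
  ext m
  simp only [Finset.mem_filter, Finset.mem_univ, true_and]
  constructor
  · rintro ⟨h1, h2⟩
    rw [Function.update_of_ne (ne_of_lt h1)] at h2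
    exact ⟨h1, h2⟩
  · rintro ⟨h1, h2⟩
    rw [Function.update_of_ne (ne_of_lt h1)]
    exact ⟨h1, h2⟩

theorem csg_sq (τ : Fin n → Fin 3) (l : Fin n) : csg τ l * csg τ l = 1 := by
  unfold csg
  rcases neg_one_pow_eq_or ℤ (Finset.univ.filter (fun m => m < l ∧ τ m = 2)).card with h | h <;>
    rw [h] <;> norm_num

theorem csg_update2 (τ : Fin n → Fin 3) {l m : Fin n} (hl : τ l ≠ 2) (hlm : m ≠ l) :
    csg (Function.update τ l 2) m = if l < m then -csg τ m else csg τ m := by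
  have h1 : Function.update (Function.update τ l 2) l (τ l) = τ := by
    rw [Function.update_idem, Function.update_eq_self]
  have h2 := csg_update (Function.update τ l 2) (Function.update_self l 2 τ) hlm hl
  rw [h1] at h2
  rw [h2]
  split_ifs
  · rw [neg_neg]
  · rfl

theorem Hh_zero (b : Fin n → ℤ) (m : Fin n) : Hh 𝔽 b m 0 = 0 := by
  funext τ
  unfold Hh
  split_ifs
  · rfl
  · rw [Pi.zero_apply, map_zero, smul_zero]
    rfl

theorem Hh_add (b : Fin n → ℤ) (m : Fin n) (f g : XA 𝔽 n) :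
    Hh 𝔽 b m (f + g) = Hh 𝔽 b m f + Hh 𝔽 b m g := by
  funext τ
  rw [Pi.add_apply]
  unfold Hh
  split_ifs
  · rw [add_zero]
  · rw [Pi.add_apply, map_add, smul_add]

theorem Hh_sum (b : Fin n → ℤ) (m : Fin n) {κ : Type*} (t : Finset κ) (f : κ → XA 𝔽 n) :
    Hh 𝔽 b m (∑ i ∈ t, f i) = ∑ i ∈ t, Hh 𝔽 b m (f i) := by
  classical
  induction t using Finset.induction_on with
  | empty => rw [Finset.sum_empty, Finset.sum_empty, Hh_zero]
  | insert a t ha ih => rw [Finset.sum_insert ha, Finset.sum_insert ha, Hh_add, ih]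

theorem zsmul_hom (φ : Lau 𝔽 n →+ Lau 𝔽 n) (z : ℤ) (f : Lau 𝔽 n) : φ (z • f) = z • φ f :=
  map_zsmul φ z f

/-- off-diagonal terms cancel -/
theorem Dd_Hh_ne (b : Fin n → ℤ) {l m : Fin n} (hlm : m ≠ l) (f : XA 𝔽 n) :
    Dd 𝔽 l (Hh 𝔽 b m f) + Hh 𝔽 b m (Dd 𝔽 l f) = 0 := by
  funext τ
  rw [Pi.add_apply, Pi.zero_apply, Dd_apply, Hh_apply, Hh_apply, Hh_apply, Dd_apply]
  by_cases hl : τ l = 2
  · rw [if_pos hl]
    rw [Function.update_of_ne hlm, Function.update_of_ne hlm]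
    by_cases hm : τ m = 2
    · rw [if_pos hm, if_pos hm, if_pos hm, sub_zero, smul_zero, add_zero]
    · rw [if_neg hm, if_neg hm, if_neg hm, Function.update_of_ne hlm.symm, if_pos hl,
        csg_update τ hl hlm (by decide), csg_update τ hl hlm (by decide),
        csg_update2 τ hm hlm.symm, zsmul_hom, map_sub, Function.update_comm hlm,
        Function.update_comm hlm, ← smul_sub, smul_smul, smul_smul, ← add_smul]
      have h1 : csg τ l * (if l < m then -csg τ m else csg τ m) +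
          csg τ m * (if m < l then -csg τ l else csg τ l) = 0 := by
        rcases lt_or_gt_of_ne hlm with h | h
        · rw [if_neg (not_lt.mpr h.le), if_pos h]
          ring
        · rw [if_pos h, if_neg (not_lt.mpr h.le)]
          ring
      rw [h1, zero_smul]
  · rw [if_neg hl, zero_add]
    by_cases hm : τ m = 2
    · rw [if_pos hm]
    · rw [if_neg hm, Function.update_of_ne hlm.symm, if_neg hl, map_zero, smul_zero]

theorem rs_split (b : Fin n → ℤ) (l : Fin n) (f : Lau 𝔽 n) :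
    f - (rsP 𝔽 (p0 b l) f + rsP 𝔽 (p1 b l) f) = rsP 𝔽 (pH b l) f := by
  refine lau_ext 𝔽 fun m => ?_
  rw [AddMonoidAlgebra.coeff_sub, Finsupp.sub_apply, AddMonoidAlgebra.coeff_add,
    Finsupp.add_apply]
  by_cases h0 : m.1 l ≤ b l + m.2
  · rw [rsP_coeff_pos 𝔽 (p := p0 b l) f h0, rsP_coeff_neg 𝔽 (p := p1 b l) f (fun h => h.1 h0),
      rsP_coeff_neg 𝔽 (p := pH b l) f (fun h => h.1 h0), add_zero, sub_self]
  · by_cases h1 : 0 ≤ m.1 l
    · rw [rsP_coeff_neg 𝔽 (p := p0 b l) f h0, rsP_coeff_pos 𝔽 (p := p1 b l) f ⟨h0, h1⟩,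
        rsP_coeff_neg 𝔽 (p := pH b l) f (fun h => h.2 h1), zero_add, sub_self]
    · rw [rsP_coeff_neg 𝔽 (p := p0 b l) f h0, rsP_coeff_neg 𝔽 (p := p1 b l) f (fun h => h1 h.2),
        rsP_coeff_pos 𝔽 (p := pH b l) f ⟨h0, h1⟩, zero_add, sub_zero]

theorem rs_type0 {b : Fin n → ℤ} {τ : Fin n → Fin 3} {s : ℤ} {l : Fin n} {f : Lau 𝔽 n}
    (hl : τ l = 0) (hf : inBlk 𝔽 b τ s f) :
    rsP 𝔽 (p0 b l) f = f ∧ rsP 𝔽 (p1 b l) f = 0 := by
  constructor
  · refine lau_ext 𝔽 fun m => ?_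
    by_cases h : f.coeff m = 0
    · by_cases h0 : p0 b l m
      · exact rsP_coeff_pos 𝔽 f h0
      · rw [rsP_coeff_neg 𝔽 f h0, h]
    · exact rsP_coeff_pos 𝔽 f ((hf m h).2.1 l hl)
  · refine lau_ext 𝔽 fun m => ?_
    rw [AddMonoidAlgebra.coeff_zero, Finsupp.zero_apply]
    by_contra h
    obtain ⟨h1, h2⟩ := rsP_ne 𝔽 h
    exact h1.1 ((hf m h2).2.1 l hl)

theorem rs_type1 {b : Fin n → ℤ} {τ : Fin n → Fin 3} {s : ℤ} {l : Fin n} {f : Lau 𝔽 n}
    (hl : τ l = 1) (hf : inBlk 𝔽 b τ s f) :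
    f - rsP 𝔽 (p1 b l) f = rsP 𝔽 (p0 b l) f := by
  have h1 := rs_split 𝔽 b l f
  have h2 : rsP 𝔽 (pH b l) f = 0 := by
    refine lau_ext 𝔽 fun m => ?_
    rw [AddMonoidAlgebra.coeff_zero, Finsupp.zero_apply]
    by_contra h
    obtain ⟨h3, h4⟩ := rsP_ne 𝔽 h
    exact h3.2 ((hf m h4).2.2 l hl)
  rw [h2, sub_eq_zero] at h1
  nth_rw 1 [h1]
  rw [add_sub_cancel_right]

theorem fin3_cases (c : Fin 3) (h : c ≠ 2) : c = 0 ∨ c = 1 := by
  revert h
  fin_cases c <;> simp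

/-- diagonal terms -/
theorem Dd_Hh_self {b : Fin n → ℤ} {s : ℤ} (m : Fin n) {f : XA 𝔽 n} (hf : f ∈ FA 𝔽 b s) :
    Dd 𝔽 m (Hh 𝔽 b m f) + Hh 𝔽 b m (Dd 𝔽 m f) = f - Pp 𝔽 b m f := by
  funext τ
  rw [Pi.add_apply, Pi.sub_apply, Dd_apply, Hh_apply, Hh_apply, Hh_apply, Dd_apply, Pp_apply]
  by_cases hm : τ m = 2
  · have e1 : Function.update τ m 2 = τ := by
      rw [← hm, Function.update_eq_self]
    rw [if_pos hm, if_pos hm, if_pos hm, add_zero, Function.update_self, Function.update_self,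
      if_neg (by decide), if_neg (by decide), csg_self, csg_self, Function.update_idem,
      Function.update_idem, e1, ← smul_sub, smul_smul, csg_sq, one_smul]
    unfold rt01
    rw [if_pos rfl, if_neg (by decide), AddMonoidHom.neg_apply, sub_neg_eq_add]
    have h1 := rs_split 𝔽 b m (f τ)
    rw [← h1, sub_sub_cancel]
  · rw [if_neg hm, if_neg hm, if_neg hm, zero_add, Function.update_self, if_pos rfl, csg_self,
      Function.update_idem, Function.update_idem, zsmul_hom, smul_smul, csg_sq, one_smul]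
    rcases fin3_cases (τ m) hm with h0 | h1
    · have e0 : Function.update τ m 0 = τ := by
        rw [← h0, Function.update_eq_self]
      rw [e0, h0, map_sub]
      unfold rt01
      rw [if_pos rfl, (rs_type0 𝔽 h0 (hf τ)).1]
    · have e1 : Function.update τ m 1 = τ := by
        rw [← h1, Function.update_eq_self]
      rw [e1, h1, map_sub]
      unfold rt01
      have h2 := (rs_type0 𝔽 (l := m) (Function.update_self m (0 : Fin 3) τ)
        (hf (Function.update τ m 0))).2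
      have h3 := rs_type1 𝔽 h1 (hf τ)
      rw [if_neg (by decide), AddMonoidHom.neg_apply, AddMonoidHom.neg_apply, h2, ← h3, neg_zero,
        zero_sub, neg_neg, sub_sub_cancel]

/-- **The homotopy formula.** -/
theorem homotopy {b : Fin n → ℤ} {s : ℤ} (m : Fin n) {f : XA 𝔽 n} (hf : f ∈ FA 𝔽 b s) :
    dA 𝔽 n (Hh 𝔽 b m f) + Hh 𝔽 b m (dA 𝔽 n f) = f - Pp 𝔽 b m f := by
  classical
  rw [dA_eq_sum, dA_eq_sum, Hh_sum, ← Finset.sum_add_distrib,
    Finset.sum_eq_single m, Dd_Hh_self 𝔽 m hf]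
  · intro l _ hl
    exact Dd_Hh_ne 𝔽 b (fun h => hl h.symm) f
  · intro h
    exact absurd (Finset.mem_univ m) h

theorem inBlk_zsmul_csg {b : Fin n → ℤ} {τ : Fin n → Fin 3} {s : ℤ} (τ' : Fin n → Fin 3)
    (l : Fin n) {f : Lau 𝔽 n} (h : inBlk 𝔽 b τ s f) : inBlk 𝔽 b τ s (csg τ' l • f) := by
  unfold csg
  rcases neg_one_pow_eq_or ℤ (Finset.univ.filter (fun m => m < l ∧ τ' m = 2)).card with h1 | h1
  · rw [h1, one_smul]
    exact h
  · rw [h1, neg_smul, one_smul]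
    exact inBlk_neg 𝔽 h

theorem Hh_F {b : Fin n → ℤ} {s : ℤ} (m : Fin n) {f : XA 𝔽 n} (hf : f ∈ FA 𝔽 b s) :
    Hh 𝔽 b m f ∈ FA 𝔽 b s := by
  intro τ
  unfold Hh
  split_ifs with hm
  · exact inBlk_zero 𝔽 b τ s
  · refine inBlk_zsmul_csg 𝔽 τ m ?_
    have h1 := hf (Function.update τ m 2)
    rcases fin3_cases (τ m) hm with h0 | h0
    · unfold rt01
      rw [if_pos h0]
      intro x hx
      obtain ⟨h2, h3⟩ := rsP_ne 𝔽 hx
      obtain ⟨a1, a2, a3⟩ := h1 x h3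
      refine ⟨a1, fun l hl => ?_, fun l hl => ?_⟩
      · by_cases hlm : l = m
        · rw [hlm]; exact h2
        · exact a2 l (by rw [Function.update_of_ne hlm]; exact hl)
      · by_cases hlm : l = m
        · rw [hlm, h0] at hl
          exact absurd hl (by decide)
        · exact a3 l (by rw [Function.update_of_ne hlm]; exact hl)
    · unfold rt01
      rw [if_neg (by rw [h0]; decide), AddMonoidHom.neg_apply]
      refine inBlk_neg 𝔽 ?_
      intro x hx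
      obtain ⟨h2, h3⟩ := rsP_ne 𝔽 hx
      obtain ⟨a1, a2, a3⟩ := h1 x h3
      refine ⟨a1, fun l hl => ?_, fun l hl => ?_⟩
      · by_cases hlm : l = m
        · rw [hlm, h0] at hl
          exact absurd hl (by decide)
        · exact a2 l (by rw [Function.update_of_ne hlm]; exact hl)
      · by_cases hlm : l = m
        · rw [hlm]; exact h2.2
        · exact a3 l (by rw [Function.update_of_ne hlm]; exact hl)

theorem Hh_gr {b : Fin n → ℤ} {k : ℤ} (m : Fin n) {f : XA 𝔽 n} (hf : f ∈ grA 𝔽 n k) :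
    Hh 𝔽 b m f ∈ grA 𝔽 n (k - 1) := by
  intro τ hτ
  unfold Hh
  split_ifs with hm
  · rfl
  · have h1 : f (Function.update τ m 2) = 0 := by
      refine hf _ fun h => hτ ?_
      have h2 := num2_update (Function.update τ m 2) (Function.update_self m (2 : Fin 3) τ) hm
      rw [Function.update_idem, Function.update_eq_self] at h2
      have h3 : (num2 τ : ℤ) + 1 = num2 (Function.update τ m 2) := by exact_mod_cast h2
      linarith
    rw [h1, map_zero, smul_zero]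

/-- `f` is harmonic in the direction `m` -/
def HarD (b : Fin n → ℤ) (m : Fin n) (f : XA 𝔽 n) : Prop :=
  (∀ τ x, (f τ).coeff x ≠ 0 → (τ m = 2 → b m + x.2 < x.1 m ∧ x.1 m < 0) ∧
    (τ m ≠ 2 → 0 ≤ x.1 m ∧ x.1 m ≤ b m + x.2)) ∧
  ∀ τ, f (Function.update τ m 0) = f (Function.update τ m 1)

theorem Pp_har {b : Fin n → ℤ} {s : ℤ} (m : Fin n) {f : XA 𝔽 n} (hf : f ∈ FA 𝔽 b s) :
    HarD 𝔽 b m (Pp 𝔽 b m f) := by
  refine ⟨fun τ x hx => ⟨fun hm => ?_, fun hm => ?_⟩, fun τ => ?_⟩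
  · unfold Pp at hx
    rw [if_pos hm] at hx
    obtain ⟨h1, -⟩ := rsP_ne 𝔽 hx
    exact ⟨not_le.mp h1.1, not_le.mp h1.2⟩
  · unfold Pp at hx
    rw [if_neg hm] at hx
    obtain ⟨h1, h2⟩ := rsP_ne 𝔽 hx
    exact ⟨(hf _ x h2).2.2 m (Function.update_self m (1 : Fin 3) τ), h1⟩
  · unfold Pp
    rw [Function.update_self, Function.update_self, if_neg (by decide), if_neg (by decide),
      Function.update_idem, Function.update_idem]

theorem Pp_har_ne {b : Fin n → ℤ} {m m' : Fin n} (hmm : m' ≠ m) {f : XA 𝔽 n}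
    (hf : HarD 𝔽 b m' f) : HarD 𝔽 b m' (Pp 𝔽 b m f) := by
  refine ⟨fun τ x hx => ?_, fun τ => ?_⟩
  · unfold Pp at hx
    split_ifs at hx with hm
    · exact hf.1 τ x (rsP_ne 𝔽 hx).2
    · have h1 := hf.1 _ x (rsP_ne 𝔽 hx).2
      rw [Function.update_of_ne hmm] at h1
      exact h1
  · unfold Pp
    rw [Function.update_of_ne hmm.symm, Function.update_of_ne hmm.symm, hf.2,
      Function.update_comm hmm, Function.update_comm hmm, hf.2]

theorem Pp_F {b : Fin n → ℤ} {s : ℤ} (m : Fin n) {f : XA 𝔽 n} (hf : f ∈ FA 𝔽 b s) :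
    Pp 𝔽 b m f ∈ FA 𝔽 b s := by
  have h1 := homotopy 𝔽 m hf
  have h2 : Pp 𝔽 b m f = f - (dA 𝔽 n (Hh 𝔽 b m f) + Hh 𝔽 b m (dA 𝔽 n f)) := by
    rw [h1, sub_sub_cancel]
  rw [h2]
  exact Submodule.sub_mem _ hf (Submodule.add_mem _ (dA_F 𝔽 b s _ (Hh_F 𝔽 m hf))
    (Hh_F 𝔽 m (dA_F 𝔽 b s f hf)))

/-- **Reduction to harmonic cochains.**  `W` is `F (s+1)` or `0`. -/
theorem exists_har {b : Fin n → ℤ} {s k : ℤ} (W : Submodule (PolyA 𝔽 n) (XA 𝔽 n))
    (hWd : ∀ f ∈ W, dA 𝔽 n f ∈ W) (hWH : ∀ m, ∀ f ∈ W, Hh 𝔽 b m f ∈ W)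
    (t : Finset (Fin n)) {x : XA 𝔽 n}
    (h1 : x ∈ grA 𝔽 n k) (h2 : x ∈ FA 𝔽 b s) (h3 : dA 𝔽 n x ∈ W) :
    ∃ y ∈ grA 𝔽 n k, y ∈ FA 𝔽 b s ∧ dA 𝔽 n y ∈ W ∧ (∀ m ∈ t, HarD 𝔽 b m y) ∧
      ∃ z ∈ grA 𝔽 n (k - 1) ⊓ FA 𝔽 b s, ∃ w ∈ grA 𝔽 n k ⊓ W, x - y = dA 𝔽 n z + w := by
  classical
  induction t using Finset.induction_on with
  | empty =>
    exact ⟨x, h1, h2, h3, fun m hm => absurd hm (Finset.notMem_empty m), 0,
      Submodule.zero_mem _, 0, Submodule.zero_mem _, by rw [sub_self, map_zero, add_zero]⟩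
  | insert a t ha ih =>
    obtain ⟨y, hy1, hy2, hy3, hy4, z, hz, w, hw, he⟩ := ih
    have hh := homotopy 𝔽 a hy2
    have hgr1 : Hh 𝔽 b a y ∈ grA 𝔽 n (k - 1) := Hh_gr 𝔽 a hy1
    have hgr2 : Hh 𝔽 b a (dA 𝔽 n y) ∈ grA 𝔽 n k := by
      have h4 := Hh_gr 𝔽 (b := b) a (dA_gr 𝔽 k y hy1)
      rwa [add_sub_cancel_right] at h4
    have hgr3 : dA 𝔽 n (Hh 𝔽 b a y) ∈ grA 𝔽 n k := by
      have h4 := dA_gr 𝔽 (k - 1) _ hgr1
      rwa [sub_add_cancel] at h4
    have hP : Pp 𝔽 b a y = y - (dA 𝔽 n (Hh 𝔽 b a y) + Hh 𝔽 b a (dA 𝔽 n y)) := by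
      rw [hh, sub_sub_cancel]
    refine ⟨Pp 𝔽 b a y, ?_, Pp_F 𝔽 a hy2, ?_, ?_, z + Hh 𝔽 b a y, ?_, w + Hh 𝔽 b a (dA 𝔽 n y),
      ?_, ?_⟩
    · rw [hP]
      exact Submodule.sub_mem _ hy1 (Submodule.add_mem _ hgr3 hgr2)
    · rw [hP, map_sub, map_add, dA_dA, zero_add]
      exact Submodule.sub_mem _ hy3 (hWd _ (hWH a _ hy3))
    · intro m hm
      rcases Finset.mem_insert.mp hm with h | h
      · rw [h]
        exact Pp_har 𝔽 a hy2
      · exact Pp_har_ne 𝔽 (fun h' => ha (by rw [← h']; exact h)) (hy4 m h)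
    · exact Submodule.add_mem _ hz ⟨hgr1, Hh_F 𝔽 a hy2⟩
    · exact Submodule.add_mem _ hw ⟨hgr2, hWH a _ hy3⟩
    · have h5 : x - Pp 𝔽 b a y = (x - y) + (y - Pp 𝔽 b a y) := by abel
      rw [h5, he, ← hh, map_add]
      abel

end Slices

end Vale.Agent.P202C
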