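import Vale.Agent.P202C.VDefs

/-!
P202 in characteristic p, sections (V)+(VI) (owner helper19): exact stubs.
`V1`, `V2` = minimal models (helper99), `V3` = Frobenius twist.
Prove each theorem with exactly this statement in the file named in the comment, in the namespace
`Vale.Agent.P202C.V`.
-/

set_option autoImplicit false

namespace Vale.Agent.P202C.VStubs

open IsLocalRing Vale.Agent.P202C Vale.Agent.P202C.V

universe u v

/-! #### V1 (file `V1.lean`): Gaussian elimination over a local ring -/

theorem exists_minimal {R : Type u} [CommRing R] [IsLocalRing R] {ι : Type} [Fintype ι]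
    [DecidableEq ι] (K : FCx R ι) :
    ∃ (ι' : Type) (_ : Fintype ι') (_ : DecidableEq ι') (G : FCx R ι') (_ : Retr K G),
      (∀ a b, G.mat a b ∈ maximalIdeal R) ∧ (∀ a, ∃ b, G.deg a = K.deg b) := by
  sorry

/-! #### V2 (file `V2.lean`): consequences of a retract -/

theorem retr_Hc_eq {R : Type u} [CommRing R] {ι ι' : Type} [Fintype ι] [DecidableEq ι] [Fintype ι']
    [DecidableEq ι'] {K : FCx R ι} {G : FCx R ι'} (r : Retr K G)
    (V : Type v) [AddCommGroup V] [Module R V] (j : ℤ) : Hc G V j = Hc K V j := by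
  sorry

theorem retr_null {R : Type u} [CommRing R] {ι ι' : Type} [Fintype ι] [DecidableEq ι] [Fintype ι']
    [DecidableEq ι'] {K : FCx R ι} {G : FCx R ι'} (r : Retr K G) (x : R) (h : Matrix ι ι R)
    (hd : ∀ a b, h a b ≠ 0 → K.deg a = K.deg b + 1)
    (hh : K.mat * h + h * K.mat = x • (1 : Matrix ι ι R)) :
    ∃ h' : Matrix ι' ι' R, (∀ a b, h' a b ≠ 0 → G.deg a = G.deg b + 1) ∧
      G.mat * h' + h' * G.mat = x • (1 : Matrix ι' ι' R) := by
  sorry

/-- for a minimal complex the homology with coefficients in the residue field is everything -/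
theorem Hc_residue {R : Type u} [CommRing R] [IsLocalRing R] {ι : Type} [Fintype ι]
    (G : FCx R ι) (hG : ∀ a b, G.mat a b ∈ maximalIdeal R) (j : ℤ) :
    Hc G (R ⧸ maximalIdeal R) j = ((Finset.univ.filter (fun a => G.deg a = j)).card : ℕ∞) := by
  sorry

/-! #### V3 (file `V3.lean`): the Frobenius twist -/

theorem Hc_twist_le {R : Type u} [CommRing R] {ι : Type} [Fintype ι] (G : FCx R ι) (φ : R →+* R)
    (V : Type v) [AddCommGroup V] [Module R V] (j : ℤ) :
    Hc (G.map φ) V j ≤ Hc G (Tw φ V) j := by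
  sorry

theorem Hc_twist {R : Type u} [CommRing R] [IsLocalRing R] {ι : Type} [Fintype ι] (G : FCx R ι)
    (φ : R →+* R) (V : Type v) [AddCommGroup V] [Module R V] (j : ℤ)
    (h : Hc G (Tw φ V) j ≠ ⊤) : Hc G (Tw φ V) j = twc φ * Hc (G.map φ) V j := by
  sorry

theorem twc_ne_top {R : Type u} [CommRing R] [IsLocalRing R] (φ : R →+* R) (hφ : φ.Finite)
    (hloc : ∀ r ∈ maximalIdeal R, φ r ∈ maximalIdeal R) : twc φ ≠ ⊤ := by
  sorry

theorem twc_ne_zero {R : Type u} [CommRing R] [IsLocalRing R] (φ : R →+* R) : twc φ ≠ 0 := by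
  sorry

theorem Tw_finite {R : Type u} [CommRing R] (φ : R →+* R) (hφ : φ.Finite)
    (V : Type v) [AddCommGroup V] [Module R V] [Module.Finite R V] :
    Module.Finite R (Tw φ V) := by
  sorry

theorem iterateFrobenius_finite {R : Type u} [CommRing R] (p : ℕ) [Fact p.Prime] [CharP R p]
    (hF : (frobenius R p).Finite) (e : ℕ) : (iterateFrobenius R p e).Finite := by
  sorry

end Vale.Agent.P202C.VStubs
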